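import Vale.Agent.P011N.Cl.LH.Main
import Vale.Agent.P011N.Cl.MV.Pl
import Vale.Agent.P011N.Cl.RM.Her
import Vale.Agent.P011N.Cl.T.Split

/-!
The weights of the models, and definite forms of determinant one.
-/

namespace Vale.Agent.P011N.Cl.FIN

open Matrix Vale.Agent.P011N.Cl.LH Vale.Agent.P011N.Cl.MV
open scoped ComplexOrder

section cx

variable {F : Type} [Field F] {w : F →+* ℂ} {G z : M3 F}

theorem def_congr {s : F → F} (hw : ∀ x, w (s x) = star (w x)) (hz : z.det ≠ 0) :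
    Def w (zᵀ * G * z.map s) ↔ Def w G := by
  have h1 : (z.map s).map w = (z.map w)ᵀᴴ := by
    ext i j
    exact hw _
  have h2 : (z.map w)ᵀ.det ≠ 0 := by
    rw [Matrix.det_transpose, show (z.map w).det = w z.det from (w.map_det z).symm]
    exact (map_ne_zero w).2 hz
  rw [def_id, def_id w G, Matrix.map_mul, Matrix.map_mul, h1, Matrix.transpose_map, def_cong h2]

theorem def_comp (γ : F → F) : Def (fun x => w (γ x)) G ↔ Def w (G.map γ) := Iff.rfl

theorem def_tr : Def w Gᵀ ↔ Def w G := by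
  rw [def_id, def_id w G, Matrix.transpose_map, def_transpose]

theorem def_diagonal {g : Fin 3 → F} (h0 : ∀ i, g i ≠ 0) (h : ∀ i, (w (g i)).im = 0) :
    Def w (diagonal g) ↔
      0 < (w (g 0)).re * (w (g 1)).re ∧ 0 < (w (g 1)).re * (w (g 2)).re := by
  have h1 : ∀ i, w (g i) = ((w (g i)).re : ℂ) := fun i => Complex.ext rfl (h i)
  have e : (diagonal g).map w = diagonal fun i => (((w (g i)).re : ℝ) : ℂ) := by
    rw [Matrix.diagonal_map (map_zero w)]
    exact congrArg _ (funext h1)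
  rw [def_id, e, def_diag fun i h2 => h0 i ((map_eq_zero w).1 (by
    rw [h1, h2, Complex.ofReal_zero]))]

theorem compact2 [CharZero F] {θ : Gl F} {w : F →+* ℂ} (hw : ∀ x, w (θ x) = star (w x))
    {H : M3 F} (h1 : Hᵀ = H.map θ) (h2 : H.det = 1) (h3 : Def w H) {y : F} {ξ : Fin 3 → F}
    (h : y * θ y + (fun i => θ (ξ i)) ⬝ᵥ (H *ᵥ ξ) = 0) : y = 0 ∧ ξ = 0 := by
  have k1 : (H.map w).IsHermitian := by
    ext i j
    change star (w (H j i)) = w (H i j)
    rw [← hw]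
    exact congrArg w (congrFun (congrFun h1 j) i).symm
  have k2 : (H.map w).PosDef := ((RM.def_iff k1).1 ((def_id _ _).1 h3)).resolve_right fun h4 => by
    have h5 := RM.det_re_neg h4
    rw [show (H.map w).det = w H.det from (w.map_det H).symm, h2, map_one] at h5
    norm_num at h5
  have k3 : w (y * θ y) = (Complex.normSq (w y) : ℝ) := by
    rw [map_mul, hw]
    exact Complex.mul_conj _
  have k4 : w ((fun i => θ (ξ i)) ⬝ᵥ (H *ᵥ ξ)) = (RM.val (H.map w) fun i => w (ξ i) : ℝ) := by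
    rw [← RM.val_eq k1]
    simp only [dotProduct, Matrix.mulVec, map_sum, map_mul, hw, Pi.star_apply, Matrix.map_apply]
  have k5 := congrArg w h
  rw [map_add, k3, k4, map_zero, ← Complex.ofReal_add, Complex.ofReal_eq_zero] at k5
  have k6 := Complex.normSq_nonneg (w y)
  have k7 : ξ = 0 := by
    by_contra h0
    have := (RM.posDef_iff k1).1 k2 (fun i => w (ξ i)) fun h4 =>
      h0 (funext fun i => (map_eq_zero w).1 (congrFun h4 i))
    linarith
  subst k7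
  rw [Matrix.mulVec_zero, dotProduct_zero, add_zero] at h
  exact ⟨(mul_eq_zero.1 h).elim id (map_eq_zero θ).1, rfl⟩

end cx

theorem exists_sgn {L : Type} [Field L] [NumberField L] (c : (L →+* ℝ) → ℝ) (hc : ∀ P, c P ≠ 0) :
    ∃ y : L, y ≠ 0 ∧ ∀ P, 0 < c P * P y := by
  rcases isEmpty_or_nonempty (L →+* ℝ) with h | ⟨⟨P₀⟩⟩
  · exact ⟨1, one_ne_zero, fun P => (h.false P).elim⟩
  obtain ⟨y, hy⟩ := RM.approx_real c (fun P => |c P|) fun P => abs_pos.2 (hc P)
  have h1 : ∀ P, 0 < c P * P y := fun P => by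
    have h2 := hy P
    rw [← sq_lt_sq] at h2
    nlinarith [sq_nonneg (P y)]
  refine ⟨y, fun h0 => ?_, h1⟩
  have := h1 P₀
  rw [h0, map_zero, mul_zero] at this
  exact lt_irrefl _ this

variable {F : Type} [Field F] [NumberField F] {Γ : Subgroup (Gl F)} {r σ θ : Gl F} {d q e : F}
  {u G : M3 F}

theorem exists_fix {τ ρ : Gl F} (h1 : ∀ x, τ (τ x) = x) (h2 : ∀ x, ρ (τ x) = τ (ρ x)) {δ y : F}
    (h0 : δ ≠ 0) (k1 : τ δ = -δ) (k2 : r δ = δ) (k3 : ρ δ = δ) (hy : r y ≠ y) (hy' : ρ y = y) :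
    ∃ y', r y' ≠ y' ∧ ρ y' = y' ∧ τ y' = y' := by
  by_cases h3 : r (y + τ y) = y + τ y
  · refine ⟨δ * (y - τ y), fun h4 => hy ?_, by rw [map_mul, map_sub, h2, k3, hy'], ?_⟩
    · rw [map_mul, k2, map_sub] at h4
      rw [map_add] at h3
      linear_combination (1 / 2 : F) * mul_left_cancel₀ h0 h4 + (1 / 2 : F) * h3
    · rw [map_mul, map_sub, h1, k1]
      ring
  · exact ⟨y + τ y, h3, by rw [map_add, h2, hy'], by rw [map_add, h1, add_comm]⟩

theorem exists_y (h : OSet Γ r σ θ d q e u) (h1 : Gᵀ = G.map ⇑(σ * θ))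
    (h3 : ∀ w : F →+* ℂ, (∀ x, w ((σ * θ) x) = star (w x)) →
      (Def w G ↔ Def (fun x => w (θ x)) G)) {x : F} (x0 : x ≠ 0) (x1 : θ x = x) (x2 : σ x = x) :
    ∃ y : F, y ≠ 0 ∧ θ y = y ∧ σ y = y ∧ ∀ w : F →+* ℂ, (∀ x, w ((σ * θ) x) = star (w x)) →
      (Def w G → 0 < (w y).re) ∧ (¬ Def w G → 0 < (w x).re * (w y).re) := by
  classical
  obtain ⟨L, _, _, ι, hι⟩ := exists_fixed (stb Γ x ⊓ Subgroup.closure {σ, θ})
  have hfx : ∀ z, θ z = z → σ z = z → z ∈ Set.range ι := fun z k1 k2 => (hι z).2 fun γ hγ =>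
    (Subgroup.closure_le (MulAction.stabilizer (Gl F) z)).2 (by
      rintro _ (rfl | rfl)
      exacts [k2, k1]) hγ.2
  have m1 : θ ∈ stb Γ x ⊓ Subgroup.closure {σ, θ} :=
    ⟨⟨os_θ h, x1⟩, Subgroup.subset_closure (by simp)⟩
  have m2 : σ ∈ stb Γ x ⊓ Subgroup.closure {σ, θ} :=
    ⟨⟨os_σ h, x2⟩, Subgroup.subset_closure (by simp)⟩
  have f1 : ∀ z, θ (ι z) = ι z := fun z => (hι _).1 ⟨z, rfl⟩ _ m1
  have f2 : ∀ z, σ (ι z) = ι z := fun z => (hι _).1 ⟨z, rfl⟩ _ m2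
  obtain ⟨x₀, rfl⟩ := hfx x x1 x2
  have inv : ∀ γ ∈ Subgroup.closure {σ, θ}, γ ∈ Γ ∧ ∀ w : F →+* ℂ,
      (∀ x, w ((σ * θ) x) = star (w x)) → (Def (fun x => w (γ x)) G ↔ Def w G) := by
    have cp : ∀ γ ∈ Γ, ∀ w : F →+* ℂ, (∀ x, w ((σ * θ) x) = star (w x)) →
        ∀ x, w.comp (γ : F →+* F) ((σ * θ) x) = star (w.comp (γ : F →+* F) x) :=
      fun γ hγ w hw x => (congrArg w (DFunLike.congr_fun (os_comm h hγ (os_s h)) x)).trans (hw _)
    intro γ hγ
    refine Subgroup.closure_induction_left (p := fun γ _ => γ ∈ Γ ∧ ∀ w : F →+* ℂ,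
      (∀ x, w ((σ * θ) x) = star (w x)) → (Def (fun x => w (γ x)) G ↔ Def w G))
      ⟨one_mem _, fun _ _ => Iff.rfl⟩ ?_ ?_ hγ
    all_goals
      have k1 : ∀ w : F →+* ℂ, (∀ x, w ((σ * θ) x) = star (w x)) →
          (Def (w.comp (θ : F →+* F)) G ↔ Def w G) := fun w hw => (h3 w hw).symm
      have k2 : ∀ w : F →+* ℂ, (∀ x, w ((σ * θ) x) = star (w x)) →
          (Def (w.comp (σ : F →+* F)) G ↔ Def w G) := fun w hw => by
        rw [h3 _ (cp σ (os_σ h) w hw), ← def_tr (w := w), h1]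
        rfl
      have k3 : ∀ γ ∈ ({σ, θ} : Set (Gl F)), ∀ δ, (δ ∈ Γ ∧ ∀ w : F →+* ℂ,
          (∀ x, w ((σ * θ) x) = star (w x)) → (Def (fun x => w (δ x)) G ↔ Def w G)) →
          γ * δ ∈ Γ ∧ ∀ w : F →+* ℂ, (∀ x, w ((σ * θ) x) = star (w x)) →
            (Def (fun x => w ((γ * δ) x)) G ↔ Def w G) := by
        rintro _ (rfl | rfl) δ ⟨p1, p2⟩
        · exact ⟨mul_mem (os_σ h) p1, fun w hw => (p2 _ (cp _ (os_σ h) w hw)).trans (k2 w hw)⟩
        · exact ⟨mul_mem (os_θ h) p1, fun w hw => (p2 _ (cp _ (os_θ h) w hw)).trans (k1 w hw)⟩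
    · exact fun γ hγ δ _ => k3 γ hγ δ
    · intro γ hγ δ _
      have : γ⁻¹ = γ := by
        rcases hγ with rfl | rfl
        exacts [inv_eq_of_mul_eq_one_left h.σ2, inv_eq_of_mul_eq_one_left h.θ2]
      rw [this]
      exact k3 γ hγ δ
  obtain ⟨y, y0, hy⟩ := exists_sgn (fun P : L →+* ℝ => if ∃ w : F →+* ℂ,
      (∀ x, w ((σ * θ) x) = star (w x)) ∧ Def w G ∧ ∀ z, w (ι z) = P z then 1 else P x₀)
    fun P => by
      split_ifs
      · exact one_ne_zero
      · exact (map_ne_zero P).2 fun h0 => x0 (by rw [h0, map_zero])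
  refine ⟨ι y, (map_ne_zero ι).2 y0, f1 y, f2 y, fun w hw => ?_⟩
  have hr : NumberField.ComplexEmbedding.IsReal (w.comp ι) :=
    NumberField.ComplexEmbedding.isReal_iff.2 (RingHom.ext fun z => by
      have := hw (ι z)
      rw [AlgEquiv.mul_apply, f1, f2] at this
      exact this.symm)
  have hP : ∀ z, w (ι z) = hr.embedding z := fun z => (hr.coe_embedding_apply z).symm
  have k := hy hr.embedding
  refine ⟨fun k1 => ?_, fun k1 => ?_⟩
  · rwa [if_pos ⟨w, hw, k1, hP⟩, one_mul] at k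
  · rw [if_neg] at k
    · exact k
    rintro ⟨w', p1, p2, p3⟩
    obtain ⟨γ, p4, p5⟩ := exists_gal (Γ := stb Γ (ι x₀) ⊓ Subgroup.closure {σ, θ}) (w := w)
      (w' := w') fun z hz => by
        obtain ⟨z, rfl⟩ := (hι z).2 hz
        rw [hP, p3]
    refine k1 (((inv γ p4.2).2 w hw).1 ?_)
    rwa [← funext p5]

theorem weights (h : OSet Γ r σ θ d q e u) (h0 : G.det ≠ 0) (h1 : Gᵀ = G.map ⇑(σ * θ))
    (h2 : ∃ t : F, uᵀ * G * u.map ⇑(σ * θ) = t • G.map r)
    (h3 : ∀ w : F →+* ℂ, (∀ x, w ((σ * θ) x) = star (w x)) →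
      (Def w G ↔ Def (fun x => w (θ x)) G)) :
    ∃ (g : Fin 3 → Fˣ) (t μ : F) (z : M3 F), (∀ i, θ (g i) = g i ∧ σ (g i) = g i) ∧ z.det ≠ 0 ∧
      z * u = u * z.map r ∧ zᵀ * G * z.map ⇑(σ * θ) = μ • diagonal (fun i => (g i : F)) ∧
      (r = 1 → g 1 = g 2) ∧ (r ≠ 1 → θ t = t ∧ σ t = t ∧ (g 1 : F) = t * r (g 0) ∧
        (g 2 : F) = t * r (g 1) ∧ e * (σ * θ) e * g 0 = t * r (g 2)) := by
  have hs1 : σ * θ ≠ 1 := fun k => os_ne h (by
    have := os_sd h
    rwa [k] at this)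
  have hrs := os_comm h (os_r h) (os_s h)
  have main : ∀ (g : Fin 3 → Fˣ) (t : F), (∀ i, θ (g i) = g i ∧ σ (g i) = g i) →
      uᵀ * diagonal (fun i => (g i : F)) * u.map ⇑(σ * θ) =
        t • (diagonal fun i => (g i : F)).map r →
      (∀ w : F →+* ℂ, (∀ x, w ((σ * θ) x) = star (w x)) → (Def w G ↔
        0 < (w (g 0)).re * (w (g 1)).re ∧ 0 < (w (g 1)).re * (w (g 2)).re)) →
      ∃ (z : M3 F) (μ : F), z.det ≠ 0 ∧ z * u = u * z.map r ∧
        zᵀ * G * z.map ⇑(σ * θ) = μ • diagonal fun i => (g i : F) := fun g t k1 k2 k3 => by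
    have k4 : ∀ i, (σ * θ) (g i) = g i := fun i => by rw [AlgEquiv.mul_apply, (k1 i).1, (k1 i).2]
    refine lhStmt F r (σ * θ) e u hs1 (os_ss h) hrs h.cyc G _ h0 ?_ h1 ?_ h2 ⟨t, k2⟩
      fun w hw => ?_
    · rw [Matrix.det_diagonal]
      exact Finset.prod_ne_zero_iff.2 fun i _ => (g i).ne_zero
    · rw [Matrix.diagonal_transpose, Matrix.diagonal_map (map_zero _)]
      exact congrArg _ (funext fun i => (k4 i).symm)
    · rw [k3 w hw, def_diagonal (fun i => (g i).ne_zero) fun i =>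
        Complex.conj_eq_iff_im.1 ((hw _).symm.trans (congrArg w (k4 i)))]
  rcases h.cyc with ⟨hr, hu⟩ | ⟨hr1, hr3, he, hN, hu⟩
  · obtain ⟨y, y0, y1, y2, hy⟩ := exists_y h h1 h3 (x := -1) (neg_ne_zero.2 one_ne_zero)
      (by rw [map_neg, map_one]) (by rw [map_neg, map_one])
    have k1 : ∀ i, θ ((![Units.mk0 y y0, 1, 1] : Fin 3 → Fˣ) i) =
        (![Units.mk0 y y0, 1, 1] : Fin 3 → Fˣ) i ∧ σ ((![Units.mk0 y y0, 1, 1] : Fin 3 → Fˣ) i) =
          (![Units.mk0 y y0, 1, 1] : Fin 3 → Fˣ) i := fun i => by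
      fin_cases i
      exacts [⟨y1, y2⟩, ⟨map_one θ, map_one σ⟩, ⟨map_one θ, map_one σ⟩]
    obtain ⟨z, μ, k2, k3, k4⟩ := main _ 1 k1 (by
      rw [hu, hr, Matrix.transpose_one, Matrix.map_one _ (map_zero _) (map_one _), Matrix.one_mul,
        Matrix.mul_one, one_smul]
      rfl) fun w hw => by
      change _ ↔ 0 < (w y).re * (w 1).re ∧ 0 < (w 1).re * (w 1).re
      rw [map_one, Complex.one_re, mul_one, mul_one, and_iff_left one_pos]
      refine ⟨(hy w hw).1, fun k => by_contra fun k' => ?_⟩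
      have := (hy w hw).2 k'
      rw [map_neg, map_one, Complex.neg_re, Complex.one_re] at this
      linarith
    exact ⟨_, 1, μ, z, k1, k2, k3, k4, fun _ => rfl, fun k => absurd hr k⟩
  have hr : ∀ x, r (r (r x)) = x := fun x => by
    have := DFunLike.congr_fun hr3 x
    rwa [pow_three] at this
  have hss : ∀ x, (σ * θ) ((σ * θ) x) = x := fun x => DFunLike.congr_fun (os_ss h) x
  have c1 : ∀ x, r ((σ * θ) x) = (σ * θ) (r x) := fun x => DFunLike.congr_fun hrs x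
  have c2 : ∀ x, θ (r x) = r (θ x) := fun x => (DFunLike.congr_fun h.rθ x).symm
  have c3 : ∀ x, σ (r x) = r (σ x) := fun x => (DFunLike.congr_fun h.rσ x).symm
  have c4 : ∀ x, θ ((σ * θ) x) = (σ * θ) (θ x) := fun x =>
    DFunLike.congr_fun (os_comm h (os_θ h) (os_s h)) x
  have he0 : e ≠ 0 := fun k => hN 0 (by rw [k, zero_mul, zero_mul])
  have hn0 : e * (σ * θ) e ≠ 0 := mul_ne_zero he0 ((map_ne_zero _).2 he0)
  obtain ⟨t₀, ht₀⟩ := h2
  have hdu : u.det ≠ 0 := by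
    rw [hu, Matrix.det_fin_three]
    simpa [uu] using he0
  obtain ⟨st, nt⟩ := Tw.norm (r := (r : F →+* F)) (s := ((σ * θ : Gl F) : F →+* F))
    (tw_of (s := ((σ * θ : Gl F) : F →+* F)) (hu ▸ ht₀)) hr hss c1 he h0 h1
  change (σ * θ) t₀ = t₀ at st
  change t₀ * r t₀ * r (r t₀) = e * (σ * θ) e at nt
  have t0 : t₀ ≠ 0 := fun k => hn0 (by rw [← nt, k, zero_mul, zero_mul])
  have hdr : ∀ w : F →+* ℂ, (∀ x, w ((σ * θ) x) = star (w x)) →
      (Def (w.comp (r : F →+* F)) G ↔ Def w G) := fun w hw => by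
    rw [← def_congr hw hdu, ht₀, def_id w (t₀ • _), show (t₀ • G.map r).map w =
      w t₀ • (G.map r).map w from Matrix.ext fun i j => map_mul w _ _,
      def_smul ((map_ne_zero w).2 t0)]
    rfl
  have cr : ∀ w : F →+* ℂ, (∀ x, w ((σ * θ) x) = star (w x)) →
      ∀ x, w.comp (r : F →+* F) ((σ * θ) x) = star (w.comp (r : F →+* F) x) :=
    fun w hw x => (congrArg w (c1 x)).trans (hw _)
  obtain ⟨t, t1, t2, t3⟩ : ∃ t, θ t = t ∧ σ t = t ∧ t * r t * r (r t) = e * (σ * θ) e := by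
    have k1 : θ (e * (σ * θ) e) = e * (σ * θ) e := by rw [map_mul, c4, h.θe]
    have k2 : θ (e * (σ * θ) e / (t₀ * θ t₀)) = e * (σ * θ) e / (t₀ * θ t₀) := by
      rw [map_div₀, k1, map_mul, os_θθ h, mul_comm t₀]
    have k3 : r (e * (σ * θ) e) = e * (σ * θ) e := by rw [map_mul, c1, he]
    have k4 := congrArg θ nt
    rw [k1, map_mul, map_mul, c2, c2, c2] at k4
    refine ⟨_, k2, ?_, ?_⟩
    · rw [← congrArg σ k2, ← AlgEquiv.mul_apply, map_div₀, map_mul, map_mul, hss, ← c4, st,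
        mul_comm e]
    · rw [map_div₀, k3, map_div₀, k3, map_mul, map_mul, div_mul_div_comm, div_mul_div_comm,
        show t₀ * θ t₀ * (r t₀ * r (θ t₀)) * (r (r t₀) * r (r (θ t₀))) =
          t₀ * r t₀ * r (r t₀) * (θ t₀ * r (θ t₀) * r (r (θ t₀))) by ring, nt, k4,
        mul_div_cancel_left₀ _ (mul_ne_zero hn0 hn0)]
  have t4 : t ≠ 0 := fun k => hn0 (by rw [← t3, k, zero_mul, zero_mul])
  obtain ⟨η, η0, η1, η2⟩ : ∃ η, r η ≠ η ∧ θ η = η ∧ σ η = η := by
    obtain ⟨y, hy⟩ : ∃ y, r y ≠ y := by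
      by_contra k
      push Not at k
      exact hr1 (AlgEquiv.ext k)
    obtain ⟨y', k1, -, k2⟩ := exists_fix (ρ := 1) (os_θθ h) (fun _ => rfl) h.d0 h.θd h.rd rfl hy rfl
    exact exists_fix (fun x => DFunLike.congr_fun h.σ2 x)
      (fun x => (DFunLike.congr_fun h.σθ x).symm) h.q0 h.σq h.rq h.θq k1 k2
  obtain ⟨y, y0, y1, y2, hy⟩ := exists_y h h1 h3 (x := η - r η) (sub_ne_zero.2 η0.symm)
    (by rw [map_sub, c2, η1]) (by rw [map_sub, c3, η2])
  have n0 : r t * y ≠ 0 := mul_ne_zero ((map_ne_zero r).2 t4) y0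
  have n1 : t * r (r t * y) ≠ 0 := mul_ne_zero t4 ((map_ne_zero r).2 n0)
  have n2 : t * r (t * r (r t * y)) ≠ 0 := mul_ne_zero t4 ((map_ne_zero r).2 n1)
  have k0 : e * (σ * θ) e * (r t * y) = t * r (t * r (t * r (r t * y))) := by
    rw [map_mul r t, map_mul r t, map_mul r (r t), hr, ← t3]
    ring
  have k1 : ∀ i, θ ((![Units.mk0 _ n0, Units.mk0 _ n1, Units.mk0 _ n2] : Fin 3 → Fˣ) i) =
      (![Units.mk0 _ n0, Units.mk0 _ n1, Units.mk0 _ n2] : Fin 3 → Fˣ) i ∧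
      σ ((![Units.mk0 _ n0, Units.mk0 _ n1, Units.mk0 _ n2] : Fin 3 → Fˣ) i) =
        (![Units.mk0 _ n0, Units.mk0 _ n1, Units.mk0 _ n2] : Fin 3 → Fˣ) i := fun i => by
    fin_cases i <;> simp [c2, c3, t1, t2, y1, y2]
  obtain ⟨z, μ, k2, k3, k4⟩ := main _ t k1 (by
    rw [hu]
    ext i j
    fin_cases i <;> fin_cases j <;> simp [uu, Matrix.mul_apply, Fin.sum_univ_three]
    simp only [map_mul, AlgEquiv.mul_apply] at k0
    linear_combination k0) fun w hw => by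
    have re : ∀ {a : F}, θ a = a → σ a = a → ∀ b, (w (a * b)).re = (w a).re * (w b).re :=
      fun {a} p1 p2 b => by
        have p3 := hw a
        rw [AlgEquiv.mul_apply, p1, p2] at p3
        rw [map_mul, ← Complex.conj_eq_iff_re.1 p3.symm, Complex.re_ofReal_mul, Complex.ofReal_re]
    have p0 : 0 < (w (e * (σ * θ) e)).re := by
      rw [map_mul, hw, Complex.star_def, Complex.mul_conj, Complex.ofReal_re]
      exact Complex.normSq_pos.2 ((map_ne_zero w).2 he0)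
    have p1 : (w t).re ≠ 0 := fun k => by
      rw [← t3, mul_assoc, re t1 t2, k, zero_mul] at p0
      exact lt_irrefl _ p0
    have r1 : θ (r t) = r t := by rw [c2, t1]
    have r2 : σ (r t) = r t := by rw [c3, t2]
    rw [← t3, mul_assoc, re t1 t2, re r1 r2] at p0
    change _ ↔ 0 < (w (r t * y)).re * (w (t * r (r t * y))).re ∧
      0 < (w (t * r (r t * y))).re * (w (t * r (t * r (r t * y)))).re
    rw [map_mul r t, map_mul r (r t), map_mul r (r (r t)), hr, re r1 r2, re t1 t2, re t1 t2,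
      re r1 r2, re t1 t2, re (a := r (r t)) (by rw [c2, r1]) (by rw [c3, r2])]
    have q1 : 0 < (w (r t)).re * (w y).re * ((w t).re * ((w (r (r t))).re * (w (r y)).re)) ↔
        0 < (w y).re * (w (r y)).re := by
      refine Iff.trans (iff_of_eq (congrArg _ ?_)) (mul_pos_iff_of_pos_left p0)
      ring
    have q2 : 0 < (w t).re * ((w (r (r t))).re * (w (r y)).re) *
        ((w t).re * ((w (r t)).re * ((w t).re * (w (r (r y))).re))) ↔
        0 < (w (r y)).re * (w (r (r y))).re := by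
      refine Iff.trans (iff_of_eq (congrArg _ ?_))
        (mul_pos_iff_of_pos_left (mul_pos p0 (mul_self_pos.2 p1)))
      ring
    rw [q1, q2]
    have s1 := hy _ (cr w hw)
    have s2 := hy _ (cr _ (cr w hw))
    rw [hdr w hw] at s1
    rw [hdr _ (cr w hw), hdr w hw] at s2
    refine ⟨fun k => ⟨mul_pos ((hy w hw).1 k) (s1.1 k), mul_pos (s1.1 k) (s2.1 k)⟩,
      fun k => by_contra fun k' => ?_⟩
    have a0 := (hy w hw).2 k'
    have a1 : 0 < (w (r (η - r η))).re * (w (r y)).re := s1.2 k'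
    have a2 : 0 < (w (r (r (η - r η)))).re * (w (r (r y))).re := s2.2 k'
    have a3 : (w (η - r η)).re + (w (r (η - r η))).re + (w (r (r (η - r η)))).re = 0 := by
      rw [← Complex.add_re, ← Complex.add_re, ← map_add, ← map_add, map_sub r, map_sub r, hr]
      simp
    have b0 : 0 < (w (η - r η)).re * (w (r y)).re := by
      refine (mul_pos_iff_of_pos_right (mul_self_pos.2 (left_ne_zero_of_mul k.1.ne'))).1 ?_
      have := mul_pos a0 k.1
      linarith
    have b2 : 0 < (w (r (r (η - r η)))).re * (w (r y)).re := by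
      refine (mul_pos_iff_of_pos_right (mul_self_pos.2 (right_ne_zero_of_mul k.2.ne'))).1 ?_
      have := mul_pos a2 k.2
      linarith
    have := congrArg (· * (w (r y)).re) a3
    simp only [add_mul, zero_mul] at this
    linarith
  exact ⟨_, t, μ, z, k1, k2, k3, k4, fun k => absurd k hr1, fun _ => ⟨t1, t2, rfl, rfl, k0⟩⟩

end Vale.Agent.P011N.Cl.FIN
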