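import Vale.Agent.P011N.Cl.FIN.Frm
import Vale.Agent.P011N.Cl.FIN.Wt
import Vale.Agent.P011N.Cl.MV.Pl

/-!
The normalisation of the actions on the spaces of degrees `2` and `-2`.
-/

namespace Vale.Agent.P011N.Cl.FIN

open Vale.Agent.P011.MPQ Vale.Agent.P011.D4 Vale.Agent.P011.D4.Oct Vale.Agent.P011.E6 Equiv Matrix
open Vale.Agent.P011.E6O Vale.Agent.P011.E6.Alb MV

section sm

variable {F : Type} [Field F] [NumberField F] {γ γ' : Gl F} {B B' : M3 F}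

/-- The semilinear map of a matrix. -/
def sm (γ : Gl F) (B : M3 F) (β : Fin 3 → F) : Fin 3 → F := B *ᵥ fun i => γ (β i)

theorem sm_def (β : Fin 3 → F) : (B *ᵥ fun i => γ (β i)) = sm γ B β := rfl

theorem sm_sm (β : Fin 3 → F) : sm γ B (sm γ' B' β) = sm (γ * γ') (B * B'.map γ) β := by
  rw [sm, sm, sm, ← mulVec_mulVec]
  congr 1
  funext i
  simp [mulVec, dotProduct]

theorem smul_sm (t : F) (β : Fin 3 → F) : t • sm γ B β = sm γ (t • B) β :=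
  (smul_mulVec _ _ _).symm

theorem sm_one (β : Fin 3 → F) : sm 1 1 β = β := one_mulVec _

theorem sm_ext (h : ∀ β, sm γ B β = sm γ B' β) : B = B' := by
  ext i j
  have k := congrFun (h (Pi.single j 1)) i
  have e : (fun i => γ ((Pi.single j 1 : Fin 3 → F) i)) = Pi.single j 1 := funext fun l => by
    simp [Pi.single_apply, apply_ite γ]
  simpa [sm, e] using k

/-- The alternative `the form is anisotropic`. -/
def Cp1 (s : Gl F) {a b c : Fˣ} (Φ : Subgroup (Perm (V6 a b c))) : Prop :=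
  ∀ φ ∈ Φ, Semi s φ → ∀ x, tf x (φ (x, 0)).2 = 0 → x = 0

/-- The alternative `the form on the first factor is definite`. -/
def Cp2 (θ : Gl F) (Φ : Subgroup (Perm (W1 F))) : Prop :=
  ∃ w : F →+* ℂ, (∀ x, w (θ x) = star (w x)) ∧
    ∀ φ ∈ Φ, Semi θ φ → ∀ a : M3 F, a.det ≠ 0 → ActA θ true a φ → Def w a⁻¹

theorem Cp1.tr {s : Gl F} {a b c a' b' c' : Fˣ} {Φ : Subgroup (Perm (V6 a b c))} (h : Cp1 s Φ)
    {ψ : V6 a' b' c' ≃ V6 a b c} {ν₁ ν₂ l : F} (hψ : Sim6 id false ν₁ ν₂ l ψ) :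
    Cp1 s (tr ψ Φ) := fun φ hφ hs x hx => by
  have k := sim6_one.2 hψ
  refine k.pr.b1.1 ((h _ (mem_tr.1 hφ) ((Cl.semi_congr hψ.semi).2 hs) _ ?_).trans k.pr.s1.zero.symm)
  rw [← k.inl, permCongr_apply, symm_apply_apply, ← Prod.mk.eta (p := φ _), k.apply_false,
    k.pr.tf, hx, map_zero, mul_zero]

variable {Γ : Subgroup (Gl F)} {r σ θ : Gl F} {d q e : F} {u : M3 F}
  {Φ : Subgroup (Perm (W1 F))} {φ : Perm (W1 F)}

theorem sim_of (hc : Cfg Γ r q u Φ) (hφ : φ ∈ Φ) (hs : Semi γ φ) {ε : Bool}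
    (h : γ q = q ↔ ε = false) : ∃ ν₁ ν₂ m, Sim6 γ ε ν₁ ν₂ m φ := by
  obtain ⟨ε', ν₁, ν₂, m, k⟩ := hc.dat.sim_of hφ hs
  have k1 := k.inner_iff.symm.trans ((hc.inn φ hφ γ hs).trans h)
  exact ⟨ν₁, ν₂, m, k.cast rfl (by cases ε <;> cases ε' <;> simp_all) rfl rfl rfl⟩

theorem Cp2.tr (h : Cp2 θ Φ) (hΦ : Dat6 Γ Φ) (hL : GrOn Φ (fun γ => γ d = -d) true)
    (hd : θ d = -d) {ψ : Perm (W1 F)} {ν₁ ν₂ l : F}
    (hψ : Sim6 id false ν₁ ν₂ l ψ) {T : M3 F} (hT : T.det ≠ 0) (hA : ActA id false T ψ) :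
    Cp2 θ (tr ψ Φ) := by
  obtain ⟨w, h1, h2⟩ := h
  refine ⟨w, h1, fun φ hφ hs a ha k => ?_⟩
  have k1 := (MV.semi_congr hψ).2 hs
  obtain ⟨ε, _, _, _, k2⟩ := hΦ.sim_of hφ k1
  obtain ⟨a', k3, -, -, k4⟩ := exists_act nfStmt k2 (hL _ hφ θ k1 hd)
  have k5 := det_map_ne hT θ
  obtain ⟨s, k6, rfl⟩ := (hA.tr hT k4).unique k (by simp [*]) ha
  rw [m3_inv_smul k6 (by simp [*]), LH.def_smul' (inv_ne_zero k6), if_pos rfl,
    Matrix.mul_inv_rev, Matrix.mul_inv_rev, inv_tr, m3_inv_inv k5, m3_inv_inv hT, LH.def_id,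
    ← Matrix.mul_assoc, Matrix.map_mul, Matrix.map_mul,
    show T.map w = ((T.map θ)ᵀ.map w)ᴴ from Matrix.ext fun i j => by simp [h1],
    LH.def_cong (by rw [m3_det_map, det_transpose]; exact (map_ne_zero w).2 k5), ← LH.def_id]
  exact h2 _ hφ k1 a' k3 k4

/-- The change of the bases of the second and third factors. -/
theorem exists_ch {z C : M3 F} (hz : z.det ≠ 0) (hC : C.det ≠ 0) :
    ∃ (ψ : Perm (W1 F)) (ν₁ ν₂ t ν : F) (T : M3 F), Sim6 id false ν₁ ν₂ 1 ψ ∧ Cm false ψ ∧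
      T.det ≠ 0 ∧ ActA id false T ψ ∧ PN (1 : Gl F) false false z (t • C) ν 1 ψ := by
  have h : TD (diagonal ![1, 1, (C.det / z.det) ^ 2]) z⁻¹ᵀ ((C.det / z.det) • C)
      ![1, (C.det / z.det) ^ 2 * z.det, 1] := by
    refine ⟨by simp [Fin.prod_univ_three, hz, hC], by simp [hz], by simp [hz, hC],
      fun i => by fin_cases i <;> simp [hz, hC], ?_, ?_, ?_⟩ <;>
      simp [Fin.prod_univ_three] <;> field_simp
  have h1 := h.tnf one_ne_zero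
  have h2 : ActA (1 : Gl F) false _ _ := TNF.slA (γ := 1) h1 (h.sim one_ne_zero).semi
  have h3 := pn_of_tnf (γ := 1) h1 (by simp) (by simp) (by simp) (by simp)
  refine ⟨_, _, _, C.det / z.det, (C.det / z.det) ^ 2 * z.det, _, h.sim one_ne_zero,
    h2.cm h.da (by apply comm_hz <;> simp), h.da, h2, ?_⟩
  simpa [inv_tr, m3_inv_inv hz] using h3

/-- The normal form of an element of the datum. -/
theorem pn_of {ε κ : Bool} (hc : Cfg Γ r q u Φ) (hφ : φ ∈ Φ) (hs : Semi γ φ)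
    (h : γ q = q ↔ ε = false) (hκ : Cm κ φ) : ∃ B C ν m, PN γ ε κ B C ν m φ := by
  obtain ⟨_, _, m, k⟩ := sim_of hc hφ hs h
  obtain ⟨B, C, ν, k1⟩ := exists_pn k hκ
  exact ⟨B, C, ν, m, k1⟩

variable (h : OSet Γ r σ θ d q e u)
include h

theorem s_iff : (σ * θ) q = q ↔ true = false :=
  iff_of_false (fun k => h.q0 (by linear_combination (1 / 2 : F) * (k.symm.trans (os_sq h))))
    (by simp)

theorem exists_p (hc : Cfg Γ r q u Φ) (hL : Lv3 Φ d) :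
    ∃ p ∈ Φ, Semi r p ∧ ∃ C ν m, PN r false false u C ν m p := by
  obtain ⟨p, h1, h2, h3⟩ := hc.cyc
  obtain ⟨B, C, ν, m, k⟩ := pn_of (ε := false) hc h1 h2 (by simp [h.rq]) (hL.1 p h1 r h2 h.rd)
  obtain rfl : B = u := sm_ext fun β => pP_inj (congrArg Prod.fst ((k.pp β).symm.trans (h3 β)))
  exact ⟨p, h1, h2, C, ν, m, k⟩

theorem pn_s (hc : Cfg Γ r q u Φ) (hL : Lv3 Φ d) (hφ : φ ∈ Φ) (hs : Semi (⇑(σ * θ)) φ) :
    ∃ B C ν m, PN (⇑(σ * θ)) true true B C ν m φ :=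
  pn_of hc hφ hs (s_iff h) (hL.2 φ hφ _ hs (os_sd h))

theorem pn_θ (hc : Cfg Γ r q u Φ) (hL : Lv3 Φ d) (hφ : φ ∈ Φ) (hs : Semi θ φ) :
    ∃ B C ν m, PN θ false true B C ν m φ :=
  pn_of hc hφ hs (by simp [h.θq]) (hL.2 φ hφ _ hs h.θd)

theorem exists_herm (hc : Cfg Γ r q u Φ) (hL : Lv3 Φ d) : ∃ φ ∈ Φ, Semi (⇑(σ * θ)) φ ∧
    ∃ G : M3 F, G.det ≠ 0 ∧ Gᵀ = G.map (σ * θ) ∧
      ∀ β, φ (pP β, 0) = (0, pQ (sm (σ * θ) G β)) := by
  obtain ⟨φ, h1, h2⟩ := hc.dat.ov.onto _ (os_s h)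
  obtain ⟨B, C, ν, m, k⟩ := pn_s h hc hL h1 h2
  have h3 := h2.mul h2
  rw [os_ss h] at h3
  obtain ⟨z, z', h4⟩ := mem_Z6.1 (hc.dat.lin _ (mul_mem h1 h1) h3)
  have h5 : m • (C⁻¹ᵀ * C.map (σ * θ)) = z • 1 := sm_ext (γ := 1) fun β => pP_inj <| by
    have k1 := h4 (pP β, 0)
    rw [Perm.mul_apply, k.pp, if_pos rfl, inj, if_pos rfl, k.qq, if_pos rfl, sm_def, sm_def,
      sm_sm, os_ss h, smul_sm, ← pP_smul] at k1
    rw [← smul_sm z, sm_one]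
    exact congrArg Prod.fst k1
  have hz := (ne_of_scal6 h4).1
  have h6 : Cᵀ = (m / z) • C.map (σ * θ) := by
    have k1 := congrArg (fun x => z⁻¹ • (Cᵀ * x)) h5
    simp only [Matrix.mul_smul, ← Matrix.mul_assoc, ← transpose_mul, m3_inv_mul k.dc,
      transpose_one, Matrix.one_mul, Matrix.mul_one, smul_smul, inv_mul_cancel₀ hz, one_smul] at k1
    rw [← k1, div_eq_inv_mul]
  have hs : ∀ x, (σ * θ) ((σ * θ) x) = x := fun x => by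
    rw [← AlgEquiv.mul_apply, os_ss h, AlgEquiv.one_apply]
  have h7 : m / z * (σ * θ) (m / z) = 1 := by
    obtain ⟨i, j, k1⟩ : ∃ i j, C i j ≠ 0 := by
      by_contra! k1
      exact k.dc (by simp [show C = 0 from Matrix.ext k1])
    have k2 : C j i = m / z * (σ * θ) (C i j) := congrFun (congrFun h6 i) j
    have k3 : C i j = m / z * (σ * θ) (C j i) := congrFun (congrFun h6 j) i
    rw [k2, map_mul, hs, ← mul_assoc] at k3
    exact mul_right_cancel₀ k1 (k3.symm.trans (one_mul _).symm)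
  obtain ⟨c, k1, k2⟩ : ∃ c : F, c ≠ 0 ∧ (σ * θ) c = c * (m / z) := by
    by_cases k1 : 1 + (σ * θ) (m / z) = 0
    · refine ⟨q, h.q0, ?_⟩
      have k2 := congrArg (σ * θ) k1
      rw [map_add, map_one, hs, map_zero] at k2
      rw [os_sq h]
      linear_combination (-q) * k2
    · exact ⟨_, k1, by rw [map_add, map_one, hs]; linear_combination -h7⟩
  refine ⟨zs6 1 c one_ne_zero k1 * φ, mul_mem (hc.dat.sat (zs6_mem _ _ _ _)) h1,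
    (semi_Z6 (zs6_mem 1 c one_ne_zero k1)).lin_comp h2, c • C, by simp [k1, k.dc], ?_, fun β => ?_⟩
  · rw [transpose_smul, h6, smul_smul, ← k2]
    ext i j
    simp
  · rw [Perm.mul_apply, k.pp, ← smul_sm, pQ_smul]
    exact Prod.ext (smul_zero _) rfl

/-- The normalised data. -/
structure Nrm (r σ θ : Gl F) (e : F) (Φ : Subgroup (Perm (W1 F))) (g : Fin 3 → Fˣ) (t : F) :
    Prop where
  fx : ∀ i, θ (g i) = g i ∧ σ (g i) = g i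
  one : r = 1 → g 1 = g 2
  cyc : r ≠ 1 → θ t = t ∧ σ t = t ∧ (g 1 : F) = t * r (g 0) ∧ (g 2 : F) = t * r (g 1) ∧
    e * (σ * θ) e * g 0 = t * r (g 2)
  pθ : ∃ φ ∈ Φ, Semi θ φ ∧ ∀ β, φ (pP β, 0) = (pQ (sm θ 1 β), 0)
  ps : ∃ φ ∈ Φ, Semi (⇑(σ * θ)) φ ∧
    ∀ β, φ (pP β, 0) = (0, pQ (sm (σ * θ) (diagonal fun i => (g i : F)) β))
  cp : r ≠ 1 → Cp1 (σ * θ) Φ ∨ Cp2 θ Φ

theorem exists_nrm (hc : Cfg Γ r q u Φ) (hL : Lv3 Φ d) (hM : Matched Φ σ θ)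
    (hK : r ≠ 1 → Compact Φ σ θ) :
    ∃ Φ' g t, Mov Φ Φ' ∧ Cfg Γ r q u Φ' ∧ Lv3 Φ' d ∧ Nrm r σ θ e Φ' g t := by
  obtain ⟨φ, h1, h2, G, h3, h4, h5⟩ := exists_herm h hc hL
  obtain ⟨p, p1, p2, Cr, νr, mr, p3⟩ := exists_p h hc hL
  have hrs : σ * θ * r = r * (σ * θ) := os_comm h (os_s h) (os_r h)
  obtain ⟨z₀, k1, k2⟩ := hc.dat.exists_Z6 (mul_mem p1 h1) (mul_mem h1 p1) (p2.mul h2)
    (hrs ▸ h2.mul p2)
  obtain ⟨z₁, z₂, k3⟩ := mem_Z6.1 k1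
  have k4 : G * u.map (σ * θ) = (z₂ * mr) • (u⁻¹ᵀ * G.map r) :=
    sm_ext (γ := r * (σ * θ)) fun β => pQ_inj <| by
      have k5 := congrArg (fun f : Perm (W1 F) => (f (pP β, 0)).2) k2
      simp only [Perm.mul_apply, p3.pp, h5, p3.qq, k3, inj, sm_def, sm_sm, hrs, ← pQ_smul, smul_sm,
        smul_smul, Bool.false_eq_true, if_false, Bool.not_false, if_true] at k5
      exact k5
  obtain ⟨g, t, μ, z, w1, w2, w3, w4, w5, w6⟩ := weights h h3 h4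
    ⟨z₂ * mr, by
      rw [Matrix.mul_assoc, k4, Matrix.mul_smul, ← inv_tr, m3_mul_inv' (by simpa using p3.db)]⟩
    (by
      have k5 : gramP φ = G := Matrix.ext fun i j => by
        simp [gramP, h5, tf_pP_pQ, sm, Pi.single_apply, mulVec, dotProduct]
      exact k5 ▸ hM φ h1 h2)
  have hμ : μ ≠ 0 := fun k => by
    simpa [k, w2, h3, det_map_ne w2 (σ * θ)] using congrArg det w4
  obtain ⟨χ, c1, c2⟩ := hc.dat.ov.onto _ (os_θ h)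
  obtain ⟨B, C, ν, m, c3⟩ := pn_θ h hc hL c1 c2
  obtain ⟨ψ, _, _, τ, ν', T, s1, s2, s3, s4, s5⟩ := exists_ch (C := C * z.map θ) w2
    (by simp [c3.dc, det_map_ne w2 θ])
  have hτ : τ ≠ 0 := fun k => s5.dc (by simp [k])
  have e1 : ∀ β, ψ (pP β, 0) = (pP (sm 1 z β), 0) := s5.pp
  have e2 : ∀ β, ψ (pQ β, 0) = (pQ (sm 1 (τ • (C * z.map θ)) β), 0) := s5.pq
  have e3 : ∀ β, ψ (0, pQ β) = (0, pQ ((1 : F) • sm 1 z⁻¹ᵀ β)) := s5.qq
  have e4 : ∀ (a b : F) (ha : a ≠ 0) (hb : b ≠ 0) {γ : Gl F} {φ : Perm (W1 F)}, φ ∈ Φ → Semi γ φ →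
      ψ.symm.permCongr (zs6 a b ha hb * φ) ∈ tr ψ Φ ∧
        Semi γ (ψ.symm.permCongr (zs6 a b ha hb * φ)) := fun a b ha hb γ φ k k' =>
    ⟨symm_mem_tr.2 (mul_mem (hc.dat.sat (zs6_mem _ _ _ _)) k),
      (Cl.semi_congr s1.semi.symm_lin).2 ((semi_Z6 (zs6_mem a b ha hb)).lin_comp k')⟩
  refine ⟨tr ψ Φ, g, t, ⟨ψ, _, _, _, s1, rfl⟩, cfg_tr hc s1 fun p _ _ k β => ?_,
    ⟨grOn_tr s1 s2 hL.1, grOn_tr s1 s2 hL.2⟩, w1, w5, w6,
    ⟨_, (e4 τ 1 hτ one_ne_zero c1 c2).1, (e4 τ 1 hτ one_ne_zero c1 c2).2, fun β => ?_⟩,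
    ⟨_, (e4 1 μ⁻¹ one_ne_zero (inv_ne_zero hμ) h1 h2).1,
      (e4 1 μ⁻¹ one_ne_zero (inv_ne_zero hμ) h1 h2).2, fun β => ?_⟩, fun k => ?_⟩
  · rw [e1, e1, k, sm_def, sm_def, sm_sm, sm_sm, one_mul, mul_one, ← w3]
    rfl
  · rw [permCongr_apply, symm_symm, symm_apply_eq, e1, e2, Perm.mul_apply, c3.pp, sm_def, sm_sm,
      sm_sm, one_mul, mul_one, Matrix.map_one _ (map_zero _) (map_one _), Matrix.mul_one,
      ← smul_sm, pQ_smul]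
    exact Prod.ext rfl (smul_zero _)
  · rw [permCongr_apply, symm_symm, symm_apply_eq, e1, e3, Perm.mul_apply, h5, sm_sm,
      sm_sm, one_mul, mul_one, one_smul,
      show z⁻¹ᵀ * (diagonal fun i => (g i : F)).map (1 : Gl F) = μ⁻¹ • (G * z.map (σ * θ)) by
        rw [← m3_inv_mul' (a := zᵀ) (by simpa using w2) (G * _), ← Matrix.mul_assoc zᵀ, w4, inv_tr,
          Matrix.mul_smul, inv_smul_smul₀ hμ]
        rfl, ← smul_sm, pQ_smul]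
    exact Prod.ext (smul_zero _) rfl
  · refine (hK k).imp (fun k1 => Cp1.tr k1 s1) fun ⟨w, k1, k2⟩ =>
      Cp2.tr ⟨w, k1, fun φ hφ hs a ha k3 => ?_⟩ hc.dat hL.2 h.θd s1 s3 s4
    obtain ⟨_, _, _, k4⟩ := sim_of (ε := false) hc hφ hs (by simp [h.θq])
    obtain ⟨b, c, l, k5, -⟩ := tnf_of_act nfStmt k4 (hL.2 φ hφ θ hs h.θd) k3 ha
    exact k2 φ hφ a b c l _ k5

end sm

end Vale.Agent.P011N.Cl.FIN
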