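import Vale.Agent.P011N.Cl.FIN.A

/-!
The identification of the generators, and the anisotropy of the norm form.
-/

namespace Vale.Agent.P011N.Cl.FIN

open Vale.Agent.P011.MPQ Vale.Agent.P011.D4 Vale.Agent.P011.D4.Oct Vale.Agent.P011.E6 Equiv Matrix
open Vale.Agent.P011.E6O Vale.Agent.P011.E6.Alb MV

variable {F : Type} [Field F] [NumberField F] {γ θ : Gl F} {φ : Perm (W1 F)}

section theta

theorem theta_nf {ν₁ ν₂ m : F} (hs : Sim6 θ false ν₁ ν₂ m φ) (hc : Cm true φ)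
    (hp : ∀ β, φ (pP β, 0) = (pQ (sm θ 1 β), 0)) (h2 : φ * φ ∈ Z6 (1 : Fˣ) 1 1) (hθ : θ * θ = 1) :
    ∃ (a : M3 F) (s : F), a.det ≠ 0 ∧ s ≠ 0 ∧ ActA θ true a φ ∧
      (s⁻¹ • a⁻¹)ᵀ = (s⁻¹ • a⁻¹).map θ ∧ (s⁻¹ • a⁻¹).det = 1 ∧ ∀ X Y Z, φ (mkT X Y Z, 0) =
        (mkT (s ^ 2 • (a * (Z.map θ)ᵀ)) (s • (Y.map θ)ᵀ) ((X.map θ)ᵀ * a⁻¹), 0) := by
  obtain ⟨a, a1, a2, a3, a4⟩ := exists_act nfStmt hs hc
  obtain ⟨b, c, l, k, -⟩ := tnf_of_act nfStmt hs hc a4 a1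
  obtain ⟨k1, k2, k3, k4⟩ := block_of_comm a3
  have k5 := pn_of_tnf k k1 k2 k3 k4
  obtain ⟨z, z', hz⟩ := mem_Z6.1 h2
  have z0 := (ne_of_scal6 hz).1
  have n0 := k.ne 0
  have n1 := k.ne 1
  have n2 := k.ne 2
  rw [a2, mul_one, div_one] at k5
  have e1 : l 2 • c = 1 := sm_ext fun β => pQ_inj (congrArg Prod.fst ((k5.pp β).symm.trans (hp β)))
  have e2 : l 0 • b⁻¹ᵀ = z • 1 := sm_ext (γ := 1) fun β => pP_inj <| by
    have k6 := hz (pP β, 0)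
    rw [Perm.mul_apply, hp, k5.pq, if_pos rfl, sm_def, sm_sm, hθ,
      Matrix.map_one _ (map_zero _) (map_one _), Matrix.mul_one, ← pP_smul] at k6
    rw [← smul_sm z, sm_one]
    exact congrArg Prod.fst k6
  obtain rfl : c = (l 2)⁻¹ • 1 := by rw [← e1, inv_smul_smul₀ n2]
  obtain rfl : b = (l 0 / z) • 1 := by
    have k6 := congrArg (fun x => z⁻¹ • (xᵀ * b)) e2
    simp only [transpose_smul, transpose_transpose, transpose_one, Matrix.smul_mul, m3_inv_mul k.db,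
      Matrix.one_mul, smul_smul, inv_mul_cancel₀ z0, one_smul] at k6
    rw [← k6, div_eq_inv_mul]
  have r1 := k.r1
  have r2 := k.r2
  simp only [det_smul, det_one, Fintype.card_fin, mul_one] at r1 r2
  obtain ⟨s, hs'⟩ : ∃ s, s = l 0 * l 1 * l 2 / z := ⟨_, rfl⟩
  have s0 : s ≠ 0 := by simp [*]
  have e3 : z = s ^ 2 := by
    rw [hs']
    field_simp at r1 ⊢
    linear_combination -r1
  have e4 : ∀ X Y Z, φ (mkT X Y Z, 0) =
      (mkT (z • (a * (Z.map θ)ᵀ)) (s • (Y.map θ)ᵀ) ((X.map θ)ᵀ * a⁻¹), 0) := fun X Y Z => by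
    rw [k.fst, m3_inv_smul (div_ne_zero n0 z0) (by simp), m3_inv_smul (inv_ne_zero n2) (by simp)]
    simp only [tp, inj, if_true, Bool.false_eq_true, if_false, inv_one, Matrix.smul_mul,
      Matrix.mul_smul, Matrix.one_mul, Matrix.mul_one, smul_smul, mul_inv_cancel₀ n2, one_smul]
    congr 3 <;> [skip; rw [hs']] <;> field_simp
  have e5 := hz (mkT 1 1 0, 0)
  rw [Perm.mul_apply, e4, e4, mkT_smul, Prod.mk.injEq, mkT_inj] at e5
  obtain ⟨⟨e5, e6, -⟩, -⟩ := e5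
  have e7 : θ s = s := by
    have k6 := congrFun (congrFun e6 0) 0
    simp at k6
    exact mul_left_cancel₀ s0 (by rw [k6, e3, sq])
  refine ⟨a, s, a1, s0, a4, ?_, ?_, e3 ▸ e4⟩
  · have k6 : (a⁻¹.map θ)ᵀ = a⁻¹ := by
      rw [Matrix.map_one _ (map_zero _) (map_one _), transpose_one, Matrix.one_mul] at e5
      rw [← m3_inv_mul' a1 (a⁻¹.map θ)ᵀ, smul_right_injective _ z0 e5, Matrix.mul_one]
    ext i j
    simp [e7, ← congrFun (congrFun k6 j) i]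
  · have k6 : l 0 * l 1 * l 2 = s ^ 3 := by rw [pow_succ, ← e3, hs', mul_div_cancel₀ _ z0]
    rw [det_smul, m3_det_inv, Fintype.card_fin]
    field_simp at r2 ⊢
    rw [← k6]
    linear_combination r2

theorem aniso {a : M3 F} {s : F} (s0 : s ≠ 0) (h1 : (s⁻¹ • a⁻¹)ᵀ = (s⁻¹ • a⁻¹).map θ)
    (h2 : (s⁻¹ • a⁻¹).det = 1) (h3 : ∀ X Y Z, φ (mkT X Y Z, 0) =
      (mkT (s ^ 2 • (a * (Z.map θ)ᵀ)) (s • (Y.map θ)ᵀ) ((X.map θ)ᵀ * a⁻¹), 0))
    {w : F →+* ℂ} (hw : ∀ x, w (θ x) = star (w x)) (hD : Def w a⁻¹) {y : Oct (1 : Fˣ) 1 1}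
    (hy : φ (EI.oo 0 y, 0) = (s • EI.oo 0 y, 0)) (hn : norm y = 0) : y = 0 := by
  obtain ⟨x, hx⟩ : ∃ x : J1 F, x = EI.oo 0 y := ⟨_, rfl⟩
  rw [← hx, ← mkT_eta x, h3, mkT_smul, Prod.mk.injEq, mkT_inj] at hy
  obtain ⟨⟨-, k1, k2⟩, -⟩ := hy
  have k3 : tY x 2 1 = θ (tY x 1 2) :=
    (congrFun (congrFun (smul_right_injective _ s0 k1) 2) 1).symm
  have k4 : tZ x = ((tX x).map θ)ᵀ * (s⁻¹ • a⁻¹) := by
    rw [Matrix.mul_smul, k2, inv_smul_smul₀ s0]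
  have k5 : norm y = tY x 1 2 * tY x 2 1 + (tZ x * tX x) 0 0 := by
    simp [hx, tX, tY, tZ, Sl.XX, Sl.YY, Sl.ZZ, Sl.norm_co hal1, Matrix.mul_apply,
      Fin.sum_univ_three, EI.oo_apply, mkA]
    ring
  obtain ⟨k6, k7⟩ := compact2 hw h1 h2 ((LH.def_smul' (inv_ne_zero s0) w).2 hD) (y := tY x 1 2)
    (ξ := fun i => tX x i 0) (by rw [← hn, k5, k3, k4, Matrix.mul_assoc]; rfl)
  have k8 : tX x = 0 := Matrix.ext fun i j => by
    fin_cases j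
    · exact congrFun k7 i
    all_goals fin_cases i <;> simp [hx, tX, Sl.YY, EI.oo_apply, mkA]
  refine EI.oo_inj 0 (hx.symm.trans ((ext_T (by simp [k8]) (Matrix.ext fun i j => ?_)
    (by simp [k4, k8])).trans (map_zero _).symm))
  rw [k6, map_zero] at k3
  fin_cases i <;> fin_cases j <;>
    first | exact k3.trans (by simp) | exact k6.trans (by simp) |
      simp [hx, tY, Sl.XX, EI.oo_apply, mkA]

end theta

variable {a b c : Fˣ} {f : Oct a b c ≃ₗ[F] Oct (1 : Fˣ) 1 1}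

omit [NumberField F] in
theorem omap_smul (t : F) (x : Alb a b c) : omapA f (t • x) = t • omapA f x := by
  ext1 <;> first | rfl | exact map_smul f _ _

omit [NumberField F] in
theorem uo_un (i : Fin 3) : (uo i : J1 F) = EI.un 1 1 1 (Pi.single i 1) := by
  fin_cases i <;> ext1 <;> simp [uo, EI.un_apply, mkA]

theorem ident {ε ε' κ : Bool} {s : Fin 3} {v l : Fin 3 → F} {β t ν m : F} {π : Perm (Fin 3)}
    (f1 : f 1 = 1) (h : PN γ ε κ (β • mon s v) (t • mon s v) ν m φ) (hv : ∀ i, v i ≠ 0)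
    (k : ∀ x, φ (omapA f x, 0) = inj ε' (omapA f (tor l (st6 γ π x)))) :
    ∃ n : F, n ≠ 0 ∧ ∀ x, φ (omapA f x, 0) = inj ε (n • omapA f
      (tor (fun i => (v (i - s + 1))⁻¹ * (v (i - s + 2))⁻¹) (st6 γ (Equiv.addRight s) x))) := by
  have n0 : ν / (β * t) ≠ 0 := div_ne_zero h.ne
    (mul_ne_zero (fun k => h.db (by simp [k])) fun k => h.dc (by simp [k]))
  have e : ∀ m, omapA f (EI.un a b c m) = EI.un 1 1 1 m := fun m => by
    ext1 <;> first | rfl | exact (map_smul f _ _).trans (congrArg _ f1)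
  have k1 : ∀ i, ε = ε' ∧ π i = i + s ∧
      l (i + s) = ν / (β * t) * ((v (i + 1))⁻¹ * (v (i + 2))⁻¹) := fun i => by
    have k2 := (h.uo1 hv i).symm.trans ((congrArg _ (by rw [uo_un, e])).trans (k _))
    have k3 : ν / (β * t) * ((v (i + 1))⁻¹ * (v (i + 2))⁻¹) ≠ 0 := by simp [n0, hv]
    rw [uo_un, ← map_smul, EI.st6_un, EI.tor_un, e] at k2
    obtain rfl := inj_eps (fun k4 => k3 (by
      simpa using congrFun (EI.un_inj (k4.trans (map_zero _).symm)) (i + s))) k2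
    have k4 := congrFun (EI.un_inj (inj_inj k2)) (i + s)
    simp only [Pi.smul_apply, Pi.single_eq_same, smul_eq_mul, mul_one, Pi.mul_apply,
      Pi.single_apply, Perm.inv_eq_iff_eq] at k4
    split_ifs at k4 with k5
    · exact ⟨rfl, k5.symm, by simpa using k4.symm⟩
    · exact absurd k4 (by simpa using k3)
  obtain rfl := (k1 0).1
  obtain rfl : π = Equiv.addRight s := Equiv.ext fun i => (k1 i).2.1
  refine ⟨_, n0, fun x => ?_⟩
  rw [k, ← omap_smul, ← EI.tor_const n0, EI.tor_tor]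
  congr 3
  funext i
  exact (congrArg l (sub_add_cancel i s).symm).trans (k1 (i - s)).2.2

theorem descend {Γ : Subgroup (Gl F)} {Φ : Subgroup (Perm (W1 F))} (hΦ : Dat6 Γ Φ)
    {ψ : V6 a b c ≃ W1 F} {ν₁ ν₂ l : F} (hs : Sim6 id false ν₁ ν₂ l ψ)
    (hψ : ∀ ε x, ψ (inj ε x) = inj ε (omapA f x)) (h1 : φ ∈ Φ) (h2 : Semi γ φ) {ε : Bool}
    {G : Alb a b c → Alb a b c} {n : F} (k : ∀ x, φ (omapA f x, 0) = inj ε (n • omapA f (G x))) :
    ∀ φ' ∈ tr ψ Φ, Semi γ φ' → ∃ l : F, ∀ x, φ' (x, 0) = inj ε (l • G x) := fun φ' k1 k2 => by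
  obtain ⟨z, k3, k4⟩ := hΦ.exists_Z6 h1 (mem_tr.1 k1) h2 ((Cl.semi_congr hs.semi).2 k2)
  obtain ⟨s, t, k5⟩ := mem_Z6.1 k3
  refine ⟨(if ε then t else s) * n, fun x => ψ.injective ?_⟩
  have k6 := congrArg (fun g : Perm (W1 F) => g (ψ (inj false x))) k4
  simp only [permCongr_apply, symm_apply_apply, Perm.mul_apply] at k6
  rw [hψ, omap_smul]
  refine k6.trans ?_
  rw [hψ, inj, if_neg (by simp), k, k5]
  cases ε <;> simp [inj, mul_smul]

end Vale.Agent.P011N.Cl.FIN
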