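import Vale.Agent.P011N.Cl.TC.GR
import Vale.Agent.P011N.Cl.MV.A
import Vale.Agent.P011N.Cl.FR.Main
import Vale.Agent.P011N.Cl.EI.Tor

/-!
The action on the spaces of degrees `2` and `-2`, and the frame in the second component.
-/

namespace Vale.Agent.P011N.Cl.FIN

open Vale.Agent.P011.MPQ Vale.Agent.P011.D4 Vale.Agent.P011.D4.Oct Vale.Agent.P011.E6 Equiv Matrix
open Vale.Agent.P011.E6O Vale.Agent.P011.E6.Alb

variable {F : Type} [Field F]

/-- The monomial matrices of the cyclic permutations. -/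
def mon (s : Fin 3) (v : Fin 3 → F) : M3 F := Matrix.of fun i j => if i = j + s then v j else 0

theorem mon_inv (s : Fin 3) {v : Fin 3 → F} (hv : ∀ i, v i ≠ 0) :
    (mon s v)⁻¹ = (mon s v⁻¹)ᵀ := by
  refine Matrix.inv_eq_left_inv ?_
  ext i j
  fin_cases s <;> fin_cases i <;> fin_cases j <;>
    simp [mon, Matrix.mul_apply, hv]

theorem mon_single (s : Fin 3) (v v' : Fin 3 → F) (j k : Fin 3) :
    mon s v * single j k 1 * (mon s v')ᵀ = (v j * v' k) • single (j + s) (k + s) 1 := by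
  have h : ∀ (v : Fin 3 → F) j, mon s v *ᵥ Pi.single j 1 = v j • Pi.single (j + s) 1 := by
    intro v j
    funext i
    simp [mon, Pi.single_apply]
  rw [single_eq_single_vecMulVec_single, single_eq_single_vecMulVec_single, mul_vecMulVec,
    vecMulVec_mul, vecMul_transpose, h, h, smul_vecMulVec, vecMulVec_smul, smul_smul]

theorem mon_zero (v : Fin 3 → F) : mon 0 v = diagonal v := by
  ext i j
  fin_cases i <;> fin_cases j <;> simp [mon]

theorem mon_uu (e : F) : mon 1 ![1, 1, e] = uu e := by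
  ext i j
  fin_cases i <;> fin_cases j <;> simp [mon, uu]

theorem det_mon (s : Fin 3) (v : Fin 3 → F) : (mon s v).det = v 0 * v 1 * v 2 := by
  fin_cases s <;> simp [mon, det_fin_three] <;> ring

/-- The units in the three off-diagonal components. -/
def uo (i : Fin 3) : J1 F := mkA 0 (Pi.single i 1)

/-- The action on the spaces of degrees `2` and `-2` and on the second component. -/
structure PN (γ : F → F) (ε κ : Bool) (B C : M3 F) (ν m : F) (φ : W1 F → W1 F) : Prop where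
  db : B.det ≠ 0
  dc : C.det ≠ 0
  ne : ν ≠ 0
  ne' : m ≠ 0
  pp : ∀ β, φ (pP β, 0) =
    inj ε (if κ then pQ (C *ᵥ fun i => γ (β i)) else pP (B *ᵥ fun i => γ (β i)))
  pq : ∀ z, φ (pQ z, 0) =
    inj ε (if κ then pP (B *ᵥ fun i => γ (z i)) else pQ (C *ᵥ fun i => γ (z i)))
  qq : ∀ z, φ (0, pQ z) = inj (!ε)
    (if κ then pP (m • C⁻¹ᵀ *ᵥ fun i => γ (z i)) else pQ (m • B⁻¹ᵀ *ᵥ fun i => γ (z i)))
  y1 : ∀ Y, φ (mkT 0 Y 0, 0) = inj ε (mkT 0 (ν • (B⁻¹ᵀ * tp κ γ Y Y * C⁻¹)) 0)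
  y2 : ∀ Y, φ (0, mkT 0 Y 0) = inj (!ε) (mkT 0 ((m / ν) • (C * tp κ γ Y Y * Bᵀ)) 0)

/-- The map permutes the lines of the idempotents and of the units. -/
def FU (φ : W1 F → W1 F) : Prop :=
  ∃ (ε : Bool) (π : Perm (Fin 3)), ∀ δ i,
    (∃ c : F, φ (inj δ (ee i)) = c • inj (xor δ ε) (ee (π i))) ∧
      ∃ c : F, φ (inj δ (uo i)) = c • inj (xor δ ε) (uo (π i))

variable [CharZero F] {γ : Gl F} {ε κ : Bool} {a b c B C : M3 F} {l : Fin 3 → F} {ν m : F}

omit [CharZero F] in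
theorem ee_T (i : Fin 3) : (ee i : J1 F) = mkT 0 (single i i 1) 0 := by
  fin_cases i <;> ext1 <;> simp [ee, e1, e2, e3, mkT, mkq, single] <;> rfl

theorem uo_T (i : Fin 3) :
    (uo i : J1 F) = mkT 0 (single (i + 1) (i + 2) 1 + single (i + 2) (i + 1) 1) 0 := by
  fin_cases i <;> ext1 <;> simp [uo, mkA, mkT, mkq, single] <;> rfl

theorem tp_single (i j : Fin 3) : tp κ γ (single i j (1 : F)) (single i j 1) =
    if κ then single j i 1 else single i j 1 := by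
  cases κ <;> simp [tp, map_single]

theorem tp_add (X Y : M3 F) : tp κ γ (X + Y) (X + Y) = tp κ γ X X + tp κ γ Y Y := by
  cases κ <;> simp [tp, Matrix.map_add]

theorem vmv_map (x y : Fin 3 → F) :
    (vecMulVec x y).map γ = vecMulVec (fun i => γ (x i)) fun i => γ (y i) := by
  ext i j
  simp [vecMulVec_apply]

theorem single_map : (fun i => γ ((Pi.single 0 1 : Fin 3 → F) i)) = Pi.single 0 1 := by
  funext i
  fin_cases i <;> simp

theorem pn_of_tnf {φ : W1 F → W1 F} (h : TNF γ ε κ a b c l m φ) (h1 : a 0 1 = 0) (h2 : a 0 2 = 0)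
    (h3 : a 1 0 = 0) (h4 : a 2 0 = 0) :
    PN γ ε κ ((l 0 * a 0 0) • b⁻¹ᵀ) ((l 2 / a 0 0) • c) (l 0 * l 1 * l 2) m φ := by
  have h0 := MV.det_block h1 h2 h.da
  have n0 := h.ne 0
  have n1 := h.ne 1
  have n2 := h.ne 2
  have k1 : a *ᵥ Pi.single 0 1 = a 0 0 • Pi.single 0 1 := by
    funext i
    fin_cases i <;> simp [h3, h4]
  have k2 : Pi.single 0 1 ᵥ* a⁻¹ = (a 0 0)⁻¹ • Pi.single 0 1 := by
    have k : Pi.single 0 1 ᵥ* a = a 0 0 • Pi.single 0 1 := by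
      funext i
      fin_cases i <;> simp [h1, h2]
    have k' := congrArg (· ᵥ* a⁻¹) k
    simp only [vecMul_vecMul, m3_mul_inv h.da, vecMul_one, smul_vecMul] at k'
    conv_rhs => rw [k', inv_smul_smul₀ h0]
  have k3 : ∀ (s : F) (x : Fin 3 → F) (M : M3 F),
      s • (a * vecMulVec (Pi.single 0 1) x * M) =
        vecMulVec (Pi.single 0 1) ((s * a 0 0) • Mᵀ *ᵥ x) := fun s x M => by
    rw [mul_vecMulVec, vecMulVec_mul, k1, mulVec_transpose, smul_vecMulVec, vecMulVec_smul,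
      smul_smul]
  have k4 : ∀ (s : F) (x : Fin 3 → F) (M : M3 F),
      s • (M * vecMulVec x (Pi.single 0 1) * a⁻¹) =
        vecMulVec ((s / a 0 0) • M *ᵥ x) (Pi.single 0 1) := fun s x M => by
    rw [mul_vecMulVec, vecMulVec_mul, k2, smul_vecMulVec, vecMulVec_smul, smul_smul,
      div_eq_mul_inv]
  have hb : b⁻¹ᵀ.det ≠ 0 := by
    rw [det_transpose, m3_det_inv]
    exact inv_ne_zero h.db
  have k5 : ((l 0 * a 0 0) • b⁻¹ᵀ)⁻¹ᵀ = (l 0 * a 0 0)⁻¹ • b := by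
    rw [m3_inv_smul (mul_ne_zero n0 h0) hb, MV.inv_tr, m3_inv_inv h.db, transpose_smul,
      transpose_transpose]
  have k6 : ((l 2 / a 0 0) • c)⁻¹ = (l 2 / a 0 0)⁻¹ • c⁻¹ := m3_inv_smul (div_ne_zero n2 h0) h.dc
  refine ⟨by simpa [h0, n0] using hb, by simp [h0, n2, h.dc],
    mul_ne_zero (mul_ne_zero n0 n1) n2, h.ne', fun β => ?_, fun β => ?_, fun β => ?_,
    fun Y => ?_, fun Y => ?_⟩
  · rw [pP, h.fst]
    cases κ <;> simp [tp, vmv_map, single_map, k3, k4, pP, pQ, smul_mulVec]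
  · rw [pQ, h.fst]
    cases κ <;> simp [tp, vmv_map, single_map, k3, k4, pP, pQ, smul_mulVec]
  · rw [pQ, h.snd, k5, k6]
    cases κ <;> simp only [tp, vmv_map, single_map, k3, k4, pP, pQ, smul_mulVec, transpose_smul,
      smul_smul, transpose_vecMulVec, Bool.false_eq_true, if_false, if_true,
      Matrix.map_zero _ (map_zero γ), transpose_zero, mul_zero, zero_mul, smul_zero] <;>
      congr 4 <;> field_simp
  · rw [h.fst, k5, k6]
    cases κ <;> simp only [tp, Bool.false_eq_true, if_false, if_true, Matrix.smul_mul,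
      Matrix.mul_smul, smul_smul, Matrix.map_zero _ (map_zero γ), transpose_zero, mul_zero,
      zero_mul, smul_zero] <;> congr 3 <;> field_simp
  · rw [h.snd]
    cases κ <;> simp only [tp, Bool.false_eq_true, if_false, if_true, Matrix.smul_mul,
      Matrix.mul_smul, smul_smul, Matrix.map_zero _ (map_zero γ), transpose_zero, mul_zero,
      zero_mul, smul_zero, transpose_smul, transpose_transpose] <;> congr 3 <;> field_simp

theorem exists_pn {φ : Perm (W1 F)} {ν₁ ν₂ : F} (h : Sim6 γ ε ν₁ ν₂ m φ) (hc : Cm κ φ) :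
    ∃ B C ν, PN γ ε κ B C ν m φ := by
  obtain ⟨a, b, c, l, h1, -, h2, h3, h4, h5⟩ := nfStmt F φ γ ε κ ν₁ ν₂ m h hc
  exact ⟨_, _, _, pn_of_tnf h1 h2 h3 h4 h5⟩

section mon

variable {φ : W1 F → W1 F} {s : Fin 3} {v : Fin 3 → F} {β t : F}

theorem PN.y1' (h : PN γ ε κ (β • mon s v) (t • mon s v) ν m φ) (hv : ∀ i, v i ≠ 0) (Y : M3 F) :
    φ (mkT 0 Y 0, 0) =
      inj ε (mkT 0 ((ν / (β * t)) • (mon s v⁻¹ * tp κ γ Y Y * (mon s v⁻¹)ᵀ)) 0) := by
  have h0 : (mon s v).det ≠ 0 := by simp [det_mon, hv]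
  have h1 : β ≠ 0 := fun k => h.db (by simp [k])
  have h2 : t ≠ 0 := fun k => h.dc (by simp [k])
  rw [h.y1, m3_inv_smul h1 h0, m3_inv_smul h2 h0, mon_inv s hv]
  simp only [transpose_smul, transpose_transpose, Matrix.smul_mul, Matrix.mul_smul, smul_smul]
  congr 3
  field_simp

theorem PN.y2' (h : PN γ ε κ (β • mon s v) (t • mon s v) ν m φ) (Y : M3 F) :
    φ (0, mkT 0 Y 0) =
      inj (!ε) (mkT 0 ((m / ν * (β * t)) • (mon s v * tp κ γ Y Y * (mon s v)ᵀ)) 0) := by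
  rw [h.y2]
  simp only [transpose_smul, Matrix.smul_mul, Matrix.mul_smul, smul_smul]

theorem mon_ee (r : F) (i : Fin 3) : mkT 0 (r • (mon s v * tp κ γ (single i i 1) (single i i 1) *
    (mon s v)ᵀ)) 0 = (r * (v i * v i)) • ee (i + s) := by
  rw [tp_single, ite_self, mon_single, ee_T, mkT_smul, smul_smul, smul_zero]

theorem mon_uo (r : F) (i : Fin 3) : mkT 0 (r • (mon s v *
    tp κ γ (single (i + 1) (i + 2) 1 + single (i + 2) (i + 1) 1)
      (single (i + 1) (i + 2) 1 + single (i + 2) (i + 1) 1) * (mon s v)ᵀ)) 0 =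
    (r * (v (i + 1) * v (i + 2))) • uo (i + s) := by
  rw [tp_add, tp_single, tp_single, uo_T, mkT_smul, smul_zero, add_right_comm i s,
    add_right_comm i s]
  cases κ <;> simp only [Bool.false_eq_true, if_false, if_true, mul_add, add_mul, mon_single,
    smul_add, smul_smul, mul_comm (v (i + 2))]
  rw [add_comm]

theorem PN.uo1 (h : PN γ ε κ (β • mon s v) (t • mon s v) ν m φ) (hv : ∀ i, v i ≠ 0) (i : Fin 3) :
    φ (uo i, 0) = inj ε ((ν / (β * t) * ((v (i + 1))⁻¹ * (v (i + 2))⁻¹)) • uo (i + s)) := by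
  rw [uo_T i, h.y1' hv, mon_uo]
  rfl

theorem PN.fu (h : PN γ ε κ (β • mon s v) (t • mon s v) ν m φ) (hv : ∀ i, v i ≠ 0) : FU φ := by
  refine ⟨ε, Equiv.addRight s, fun δ i => ?_⟩
  cases δ
  · rw [ee_T i, Bool.false_xor]
    exact ⟨⟨_, (h.y1' hv _).trans ((congrArg _ (mon_ee _ i)).trans (inj_smul _ _ _))⟩, _,
      (h.uo1 hv i).trans (inj_smul _ _ _)⟩
  · rw [ee_T i, uo_T i, Bool.true_xor]
    exact ⟨⟨_, (h.y2' _).trans ((congrArg _ (mon_ee _ i)).trans (inj_smul _ _ _))⟩, _,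
      (h.y2' _).trans ((congrArg _ (mon_uo _ i)).trans (inj_smul _ _ _))⟩

end mon

theorem FU.mul {φ φ' : Perm (W1 F)} (h : FU φ) (hs : Semi γ φ) (h' : FU φ') : FU ⇑(φ * φ') := by
  obtain ⟨ε, π, h⟩ := h
  obtain ⟨ε', π', h'⟩ := h'
  refine ⟨xor ε' ε, π * π', fun δ i => ?_⟩
  obtain ⟨⟨c, h1⟩, c', h2⟩ := h' δ i
  obtain ⟨⟨d, h3⟩, d', h4⟩ := h (xor δ ε') (π' i)
  exact ⟨⟨_, by rw [Perm.mul_apply, h1, hs.smul, h3, smul_smul, Bool.xor_assoc]; rfl⟩,
    _, by rw [Perm.mul_apply, h2, hs.smul, h4, smul_smul, Bool.xor_assoc]; rfl⟩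

omit [CharZero F] in
theorem fu_Z6 {z : Perm (W1 F)} (hz : z ∈ Z6 (1 : Fˣ) 1 1) : FU z := by
  obtain ⟨s, t, h⟩ := mem_Z6.1 hz
  refine ⟨false, 1, fun δ i => ?_⟩
  cases δ
  · exact ⟨⟨s, by simp [h, inj]⟩, s, by simp [h, inj]⟩
  · exact ⟨⟨t, by simp [h, inj]⟩, t, by simp [h, inj]⟩

theorem FU.pow {φ : Perm (W1 F)} (h : FU φ) (hs : Semi γ φ) (n : ℕ) :
    FU ⇑(φ ^ n) ∧ Semi (⇑(γ ^ n)) ⇑(φ ^ n) := by
  induction n with
  | zero => exact ⟨fu_Z6 (one_mem _), semi_id⟩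
  | succ n ih =>
    rw [pow_succ', pow_succ']
    exact ⟨h.mul hs ih.1, hs.mul ih.2⟩

omit [CharZero F] in
theorem frame_of_fu {Φ : Subgroup (Perm (W1 F))} (h : ∀ φ ∈ Φ, FU φ) : Frame6 (fun _ => 1) Φ :=
  fun φ hφ => by
    obtain ⟨ε, π, h1⟩ := h φ hφ
    exact ⟨ε, π, fun i δ => (h1 δ i).1, fun i => by simpa [uo] using (h1 false i).2⟩

/-- The similitude which belongs to an isomorphism of octonion algebras. -/
theorem exists_omap {a b c : Fˣ} (f : Oct a b c ≃ₗ[F] Oct (1 : Fˣ) 1 1)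
    (h1 : ∀ x y, f (x * y) = f x * f y) : ∃ ψ : V6 a b c ≃ W1 F, Sim6 id false 1 (1 ^ 3 / 1) 1 ψ ∧
      ∀ ε x, ψ (inj ε x) = inj ε (omapA f x) := by
  obtain ⟨f1, fn⟩ := norm_of_mul f h1
  let ψ₄ : V4 a b c ≃ V4 (1 : Fˣ) 1 1 := Equiv.piCongrRight fun _ => f.toEquiv
  have s : Sim4 id 1 1 1 ψ₄ := by
    refine ⟨fun t x y => funext fun i => ?_, fun x i => (fn _).trans (one_mul _).symm,
      fun x => ?_, fun _ => one_ne_zero, one_ne_zero⟩
    · exact (map_add f _ _).trans (congrArg (· + _) (map_smul f _ _))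
    · change bil (f (x 0) * f (x 1) * f (x 2)) 1 = 1 * bil _ 1
      rw [← h1, ← h1, ← f1, bil, bil, ← map_add, fn, fn, fn, one_mul]
  obtain ⟨ψ, h3, -, -, h6⟩ := (sim4_one.2 s).extend
  have e : ∀ x, ψ (x, 0) = (omapA f x, 0) := fun x => by
    refine (h6 (dgA x) (odA x)).trans (Prod.ext ?_ rfl)
    ext1 <;> first | rfl | exact (congrArg (· * _) (div_one _)).trans (one_mul _)
  have e' : ∀ x, ψ (0, x) = (0, omapA f x) := fun x => by
    rw [h3.inr]
    refine Prod.ext rfl (eq_of_tf fun w => ?_)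
    obtain ⟨w, rfl⟩ := h3.pr.b1.2 w
    have k : fs6 ψ false w = omapA f w := congrArg Prod.fst (e w)
    have kb : ∀ u v, bil (f u) (f v) = bil u v := fun u v => by
      rw [bil, bil, ← map_add, fn, fn, fn]
    rw [tf_comm, h3.pr.tf, k, one_mul, tf_comm w]
    simp only [tf, omapA, kb]
    rfl
  refine ⟨ψ, h3, fun ε x => ?_⟩
  cases ε
  exacts [e x, e' x]

end Vale.Agent.P011N.Cl.FIN
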