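import Vale.Agent.P011N.Cl.FIN.B
import Vale.Agent.P011N.Cl.T.U4

/-!
The comparison of the outer forms of type `E₆` with the models.
-/

namespace Vale.Agent.P011N.Cl.FIN

open Vale.Agent.P011.MPQ Vale.Agent.P011.D4 Vale.Agent.P011.D4.Oct Vale.Agent.P011.E6 Equiv Matrix
open Vale.Agent.P011.E6O Vale.Agent.P011.E6.Alb MV

variable {F : Type} [Field F] [NumberField F]

/-- The group generated by an involution. -/
def two (θ : Gl F) (h : θ * θ = 1) : Subgroup (Gl F) where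
  carrier := {γ | γ = 1 ∨ γ = θ}
  mul_mem' := by rintro _ _ (rfl | rfl) (rfl | rfl) <;> simp [h]
  one_mem' := .inl rfl
  inv_mem' := by
    rintro _ (rfl | rfl)
    exacts [.inl inv_one, .inr (inv_eq_of_mul_eq_one_right h)]

theorem fx_two {θ : Gl F} {h : θ * θ = 1} {x : F} (hx : θ x = x) : Fx (two θ h) x := by
  rintro _ (rfl | rfl)
  exacts [rfl, hx]

omit [NumberField F] in
theorem tor_wt {a b c : Fˣ} (g : Fin 3 → Fˣ) (x : Alb a b c) :
    tor (fun i => (g (i - 0 + 1) : F)⁻¹ * (g (i - 0 + 2) : F)⁻¹) x = wt g⁻¹ x := by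
  ext1 <;> simp [tor, wt, mkA, dgA, odA] <;> left <;> field_simp

variable {Γ : Subgroup (Gl F)} {r σ θ : Gl F} {d q e : F} {u : M3 F}
  {Φ : Subgroup (Perm (W1 F))} {g : Fin 3 → Fˣ} {t : F}

theorem finB (hM3 : MD3Stmt) (hM5 : MD5Stmt) (h : OSet Γ r σ θ d q e u) (hc : Cfg Γ r q u Φ)
    (hL : Lv3 Φ d) (hN : Nrm r σ θ e Φ g t) (hA : Ani (Pts (S6 1 1 1) Φ)) :
    Simp (Pts (S6 (1 : Fˣ) 1 1) Φ) := by
  obtain ⟨χ, c1, c2, c3⟩ := hN.pθ
  obtain ⟨φ, h1, h2, h3⟩ := hN.ps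
  obtain ⟨p, p1, p2, Cr, νr, mr, p3⟩ := exists_p h hc hL
  obtain ⟨B, C, ν, m, c4⟩ := pn_θ h hc hL c1 c2
  obtain ⟨B', C', ν', m', h4⟩ := pn_s h hc hL h1 h2
  have m1 : ∀ γ : Gl F, (1 : M3 F).map γ = 1 := fun γ => Matrix.map_one _ (map_zero _) (map_one _)
  obtain rfl : C = 1 := sm_ext fun β => pQ_inj (congrArg Prod.fst ((c4.pp β).symm.trans (c3 β)))
  obtain rfl : C' = diagonal fun i => (g i : F) :=
    sm_ext fun β => pQ_inj (congrArg Prod.snd ((h4.pp β).symm.trans (h3 β)))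
  have c5 : χ * χ ∈ Z6 (1 : Fˣ) 1 1 :=
    hc.dat.lin _ (mul_mem c1 c1) (semi_one.1 (h.θ2 ▸ c2.mul c2))
  -- the matrices are monomial
  obtain ⟨z, _, c6⟩ := mem_Z6.1 c5
  obtain rfl : B = z • 1 := sm_ext (γ := 1) fun β => pP_inj <| by
    have k := c6 (pP β, 0)
    rw [Perm.mul_apply, c3, c4.pq, if_pos rfl, sm_def, sm_sm, h.θ2, m1, Matrix.mul_one,
      ← pP_smul] at k
    rw [← smul_sm z, sm_one]
    exact congrArg Prod.fst k
  have hu : u.map θ = u := by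
    rcases h.cyc with ⟨-, rfl⟩ | ⟨-, -, -, -, rfl⟩
    · exact m1 θ
    · ext i j
      fin_cases i <;> fin_cases j <;> simp [uu, h.θe]
  obtain ⟨z₀, k1, k2⟩ := hc.dat.exists_Z6 (mul_mem c1 p1) (mul_mem p1 c1) (c2.mul p2)
    (h.rθ ▸ p2.mul c2)
  obtain ⟨z₁, _, k3⟩ := mem_Z6.1 k1
  obtain rfl : Cr = z₁ • u := sm_ext (γ := r * θ) fun β => pQ_inj <| by
    have k := congrArg (fun f : Perm (W1 F) => (f (pP β, 0)).1) k2
    simpa only [Perm.mul_apply, p3.pp, c3, p3.pq, k3, inj, sm_def, sm_sm, ← h.rθ, ← pQ_smul,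
      smul_sm, Bool.false_eq_true, if_false, m1, hu, Matrix.mul_one, Matrix.one_mul] using k
  have hsθ : θ * (σ * θ) = σ * θ * θ := os_comm h (os_θ h) (os_s h)
  obtain ⟨z₂, k4, k5⟩ := hc.dat.exists_Z6 (mul_mem c1 h1) (mul_mem h1 c1) (c2.mul h2)
    (hsθ ▸ h2.mul c2)
  obtain ⟨_, z₃, k6⟩ := mem_Z6.1 k4
  obtain rfl : B' = (z₃ * m) • diagonal fun i => (g i : F) :=
    sm_ext (γ := σ * θ * θ) fun β => pP_inj <| by
      have k := congrArg (fun f : Perm (W1 F) => (f (pP β, 0)).2) k5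
      simpa only [Perm.mul_apply, c3, h3, h4.pq, c4.qq, k6, inj, sm_def, sm_sm, hsθ, ← pP_smul,
        smul_sm, smul_smul, Bool.not_false, if_true, m1, Matrix.mul_one, Matrix.one_mul, inv_one,
        transpose_one, diagonal_map (map_zero θ), (hN.fx _).1] using k
  have g0 : ∀ i, (g i : F) ≠ 0 := fun i => (g i).ne_zero
  have c7 : PN θ false true (z • mon 0 1) ((1 : F) • mon 0 1) ν m χ := by
    rwa [mon_zero, diagonal_one', one_smul]
  have h5 : PN (⇑(σ * θ)) true true ((z₃ * m) • mon 0 fun i => (g i : F))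
      ((1 : F) • mon 0 fun i => (g i : F)) ν' m' φ := by rwa [mon_zero, one_smul]
  have p5 : ∀ s v, mon s v = u → PN r false false ((1 : F) • mon s v) (z₁ • mon s v) νr mr p :=
    fun s v k => by rwa [one_smul, k]
  have e0 : (∀ x, x * r x * r (r x) ≠ e) → ∀ i, ![1, 1, e] i ≠ 0 := fun k i => by
    fin_cases i
    exacts [one_ne_zero, one_ne_zero, fun k' => k 0 (by simpa using k'.symm)]
  have p4 : FU p := by
    rcases h.cyc with ⟨-, k⟩ | ⟨-, -, -, k, k'⟩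
    · exact (p5 0 1 (by rw [mon_zero, diagonal_one', k])).fu fun _ => one_ne_zero
    · exact (p5 _ _ (by rw [mon_uu, k'])).fu (e0 k)
  have c8 := c7.fu fun _ => one_ne_zero
  have hσ : σ * θ * θ = σ := by rw [mul_assoc, h.θ2, mul_one]
  have hF : ∀ φ' ∈ Φ, FU φ' := fun φ' k => by
    obtain ⟨γ, k7, k8⟩ := hc.dat.ov.semi φ' k
    obtain ⟨i, j, l, rfl⟩ := (h.gen γ).1 k7
    have a1 := p4.pow p2 i
    have a2 := ((h5.fu g0).mul h2 c8).pow (hσ ▸ h2.mul c2 : Semi σ _) j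
    have a3 := c8.pow c2 l
    obtain ⟨z', k9, rfl⟩ := hc.dat.exists_Z6
      (mul_mem (mul_mem (pow_mem p1 i) (pow_mem (mul_mem h1 c1) j)) (pow_mem c1 l)) k
      ((a1.2.mul a2.2).mul a3.2) k8
    exact (fu_Z6 k9).mul (semi_one.2 (semi_Z6 k9)) ((a1.1.mul a1.2 a2.1).mul (a1.2.mul a2.2) a3.1)
  -- the octonion algebra
  obtain ⟨a, b, c, fa, fb, fc, f, f1, f2⟩ := fr1Stmt u4Stmt F Γ Φ hc.dat (frame_of_fu hF)
  obtain ⟨ψ, s1, s2⟩ := exists_omap f f1
  obtain ⟨f3, f4⟩ := norm_of_mul f f1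
  obtain ⟨_, _, _, -, d1⟩ := f2 χ c1 θ (os_θ h) c2
  obtain ⟨n, -, d2⟩ := ident f3 c7 (fun _ => one_ne_zero) d1
  have d3 : ∀ x, χ (omapA f x, 0) = inj false (n • omapA f (jA θ x)) := fun x => by
    rw [d2, ← EI.st6_id, ← one_smul F (st6 θ 1 x), ← EI.tor_const one_ne_zero]
    simp
  obtain ⟨_, _, _, -, d4⟩ := f2 φ h1 _ (os_s h) h2
  obtain ⟨n', -, d5⟩ := ident f3 h5 g0 d4
  have d6 : ∀ x, φ (omapA f x, 0) = inj true (n' • omapA f (wt g⁻¹ (jA (σ * θ) x))) := fun x => by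
    rw [d5, addRight_zero, EI.st6_id, tor_wt]
  have hS : Std6 Γ (two θ h.θ2) (tr ψ Φ) := by
    refine ⟨hc.dat.tr s1, ⟨fa, fb, fc⟩, ?_, fun γ k δ k' => ?_, fun φ' k γ k' k'' => ?_⟩
    · rintro _ (rfl | rfl)
      exacts [one_mem _, os_θ h]
    · rcases k' with rfl | rfl
      · exact .inl (by simp)
      · exact .inr (by rw [os_comm h k (os_θ h), mul_inv_cancel_right])
    · rcases k' with rfl | rfl
      · exact descend (n := 1) (ε := false) hc.dat s1 s2 (one_mem _) semi_id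
          (fun x => by rw [one_smul]; rfl) φ' k k''
      · exact descend hc.dat s1 s2 c1 c2 d3 φ' k k''
  have hs : σ * θ ∉ two θ h.θ2 := fun k =>
    absurd ((s_iff h).1 (fx_two h.θq _ k)) (by simp)
  have d7 := descend hc.dat s1 s2 h1 h2 d6
  have d8 : ∀ i, θ (g⁻¹ i : Fˣ) = (g⁻¹ i : Fˣ) ∧ σ (g⁻¹ i : Fˣ) = (g⁻¹ i : Fˣ) := fun i => by
    simp [hN.fx i]
  have hU := uiso_tr6 s1 Φ
  refine hU.symm.simp ?_
  rcases h.cyc with ⟨rfl, -⟩ | ⟨r1, r2, r3, r4, rfl⟩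
  · have k7 : ∀ i, Fx Γ ((g⁻¹ i : Fˣ) : F) := fun i γ k => by
      obtain ⟨i', j, l, rfl⟩ := (h.gen γ).1 k
      rw [one_pow, one_mul, AlgEquiv.mul_apply, pow_fix (d8 i).1, pow_fix (d8 i).2]
    refine hM3 F Γ _ a b c _ hS _ (os_s h) hs (fun γ k => ?_) g⁻¹ k7 d7 (fun w k _ => ?_)
      (hU.symm.ani hA)
    · obtain ⟨i, k8⟩ := os_form h k
      rw [one_pow, one_mul, one_mul, one_mul] at k8
      rcases k8 with rfl | rfl | rfl | rfl
      · exact .inl (.inl rfl)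
      · exact .inr (.inr (by rw [h.σθ, mul_assoc, h.σ2, mul_one]))
      · exact .inl (.inr rfl)
      · exact .inr (.inl (os_ss h))
    · have k8 : g⁻¹ 2 = g⁻¹ 1 := congrArg (·⁻¹) (hN.one rfl).symm
      have k9 := Rl.eq k (k7 1)
      rw [k8, map_mul, k9, ← Complex.ofReal_mul, Complex.ofReal_re]
      refine mul_self_pos.2 fun k' => (map_ne_zero w).2 (g⁻¹ 1).ne_zero ?_
      rw [k9, k', Complex.ofReal_zero]
  · obtain ⟨t1, t2, t3, t4, t5⟩ := hN.cyc r1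
    have e1 : e ≠ 0 := e0 r4 2
    have t0 : t ≠ 0 := fun k => g0 1 (by simp [t3, k])
    obtain ⟨_, _, _, -, d9⟩ := f2 p p1 r (os_r h) p2
    obtain ⟨n'', -, d10⟩ := ident f3 (p5 _ _ (mon_uu e)) (e0 r4) d9
    have d11 : ∀ x, p (omapA f x, 0) = inj false ((n'' * e⁻¹) • omapA f (ph6 r e x)) := fun x => by
      rw [d10, ← EI.tor_cyc, mul_smul, ← omap_smul e⁻¹, ← EI.tor_const (inv_ne_zero e1),
        EI.tor_tor]
      congr 4
      funext i
      fin_cases i <;> simp [e1]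
      rfl
    refine hM5 F Γ _ a b c _ hS r (os_r h) _ (os_s h) ?_ hs (r2 ▸ one_mem _)
      (by rw [sq, os_ss h]; exact one_mem _)
      (by rw [os_comm h (os_r h) (os_s h)]; exact .inl (by group)) (fun γ k => ?_) e t⁻¹ g⁻¹
      (fx_two h.θe) r3 (fun x _ => r4 x) (fx_two (by simp [t1])) (by simp [t1, t2])
      (fun i => ⟨fx_two (d8 i).1, by rw [AlgEquiv.mul_apply, (d8 i).1, (d8 i).2]⟩)
      (by simp [t3, mul_comm]) (by simp [t4, mul_comm]) ?_ (descend hc.dat s1 s2 p1 p2 d11) d7 ?_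
      (hU.symm.ani hA)
    · rintro (k | k)
      · exact r1 k
      · exact os_ne h (h.rd.symm.trans (k ▸ h.θd))
    · obtain ⟨i, j, l, rfl⟩ := (h.gen γ).1 k
      refine ⟨2 * i, j, ?_⟩
      have a1 : Commute r σ := h.rσ
      have a2 : Commute r θ := h.rθ
      have a3 : Commute σ θ := h.σθ
      have a4 : r ^ (2 * i) * (σ * θ) ^ j * (r ^ i * σ ^ j * θ ^ l) =
          (r ^ 3) ^ i * (σ * σ) ^ j * θ ^ (j + l) := by
        rw [a3.mul_pow, (Commute.refl σ).mul_pow, ← pow_mul, show 3 * i = 2 * i + i by ring,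
          pow_add, pow_add]
        simp only [mul_assoc]
        rw [(a2.pow_pow i j).symm.left_comm, (a3.pow_pow j j).symm.left_comm,
          (a1.pow_pow i j).symm.left_comm]
      rw [a4, r2, h.σ2, one_pow, one_pow, one_mul, one_mul]
      exact pow_mem (show θ ∈ two θ h.θ2 from .inr rfl) _
    · have k := (map_ne_zero r).2 (g0 2)
      have k' := g0 0
      simp only [Pi.inv_apply, Units.val_inv_eq_inv_val, map_inv₀]
      field_simp
      linear_combination -t5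
    · refine (hN.cp r1).imp (fun k x _ k' => ?_) fun ⟨w, k1, k2⟩ y k3 k4 => ?_
      · obtain ⟨l, k7⟩ := d7 _ (symm_mem_tr.2 h1) ((Cl.semi_congr s1.semi.symm_lin).2 h2)
        refine k.tr s1 _ (symm_mem_tr.2 h1) ((Cl.semi_congr s1.semi.symm_lin).2 h2) x ?_
        rw [k7, inj, if_pos rfl, tf_smul_right, ← tf_wt, k', mul_zero]
      · obtain ⟨_, _, _, k5⟩ := sim_of (ε := false) hc c1 c2 (by simp [h.θq])
        obtain ⟨A, s, a1, a2, a3, a4, a5, a6⟩ := theta_nf k5 (hL.2 χ c1 θ c2 h.θd) c3 c5 h.θ2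
        have k6 : s = n := by
          have k7 := d3 (ee 0)
          rw [← EI.st6_id, EI.st6_ee, show omapA f (ee 0) = ee 0 by
            ext1 <;> first | rfl | exact map_zero f] at k7
          rw [Perm.one_apply, show omapA f (ee 0) = ee 0 by
            ext1 <;> first | rfl | exact map_zero f, ee_T, a6, mkT_smul] at k7
          simpa using congrFun (congrFun (mkT_inj.1 (congrArg Prod.fst k7)).2.1 0) 0
        refine f.map_eq_zero_iff.1 (aniso a2 a4 a5 a6 k1 (k2 χ c1 c2 A a1 a3) ?_ ((f4 y).trans k4))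
        have k7 := d3 (EI.oo 0 y)
        rwa [show jA θ (EI.oo 0 y) = EI.oo 0 y by
          ext1 <;> first | exact map_zero θ | exact k3 θ (.inr rfl) | exact jO_zero θ,
          show omapA f (EI.oo 0 y) = EI.oo 0 (f y) by
            ext1 <;> first | rfl | exact map_zero f, ← k6] at k7

theorem finStmt (hM3 : MD3Stmt) (hM5 : MD5Stmt) : FinStmt := by
  intro F _ _ Γ r σ θ d q e u Φ h hc hL hM hK hA
  obtain ⟨_, g, t, ⟨ψ, _, _, _, s1, rfl⟩, k1, k2, k3⟩ := exists_nrm h hc hL hM hK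
  exact (uiso_tr6 s1 Φ).symm.simp (finB hM3 hM5 h k1 k2 k3 ((uiso_tr6 s1 Φ).symm.ani hA))

end Vale.Agent.P011N.Cl.FIN
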